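import Vale.Agent.P181.MR.Defs

set_option autoImplicit false

/-!
# P181, MR: [PAR] the parameters (pure arithmetic)
-/

namespace Vale.Agent.P181.MR.H39

/-- division data -/
theorem divd (w c T T2 N d : ℕ) (hN : 0 < N) (hd : 0 < d) (h : c + N * T + T2 ≤ w) :
    ∃ s e l : ℕ, e < d ∧ l < N ∧ w = c + (N * (d * s + T + e) + (T2 + l)) := by
  obtain ⟨W, rfl⟩ := Nat.exists_eq_add_of_le h
  refine ⟨W / N / d, W / N % d, W % N, Nat.mod_lt _ hd, Nat.mod_lt _ hN, ?_⟩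
  have h1 := Nat.div_add_mod W N
  have h2 := Nat.div_add_mod (W / N) d
  calc c + N * T + T2 + W = c + N * T + T2 + (N * (W / N) + W % N) := by rw [h1]
    _ = c + N * T + T2 + (N * (d * (W / N / d) + W / N % d) + W % N) := by rw [h2]
    _ = _ := by ring

/-- the block numbers `B`, `h` -/
theorem stepA (a b N : ℕ) (hN : 9 ≤ N) (haN : 64 * N ≤ a) (hab : 200 * a ≤ b) :
    ∃ B h : ℕ, 3 ≤ B ∧ 1 ≤ h ∧ 8 * (N * B) ≤ 5 * a ∧ 5 * a < 8 * (N * B) + 8 * N ∧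
      4 * (N * (h * B)) ≤ b ∧ b < 4 * (N * (h * B)) + 4 * (N * B) := by
  have hB1 : 8 * N * (5 * a / (8 * N)) ≤ 5 * a := Nat.mul_div_le _ _
  have hB2 : 5 * a < 8 * N * (5 * a / (8 * N) + 1) := by
    have := Nat.lt_mul_div_succ (5 * a) (show 0 < 8 * N by omega)
    simpa using this
  have hB3 : 3 ≤ 5 * a / (8 * N) := by
    rw [Nat.le_div_iff_mul_le (by omega)]
    omega
  generalize 5 * a / (8 * N) = B at hB1 hB2 hB3
  have e1 : 8 * N * B = 8 * (N * B) := by ring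
  have e2 : 8 * N * (B + 1) = 8 * (N * B) + 8 * N := by ring
  rw [e1] at hB1
  rw [e2] at hB2
  have hNB0 : 0 < 4 * (N * B) := by positivity
  have hh1 : 4 * (N * B) * (b / (4 * (N * B))) ≤ b := Nat.mul_div_le _ _
  have hh2 : b < 4 * (N * B) * (b / (4 * (N * B)) + 1) := by
    have := Nat.lt_mul_div_succ b hNB0
    simpa using this
  have hh0 : 1 ≤ b / (4 * (N * B)) := by
    rw [Nat.le_div_iff_mul_le hNB0]
    omega
  generalize b / (4 * (N * B)) = h at hh1 hh2 hh0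
  have e3 : 4 * (N * B) * h = 4 * (N * (h * B)) := by ring
  have e4 : 4 * (N * B) * (h + 1) = 4 * (N * (h * B)) + 4 * (N * B) := by ring
  rw [e3] at hh1
  rw [e4] at hh2
  exact ⟨B, h, hB3, hh0, hB1, hB2, hh1, hh2⟩

/-- `F` is small -/
theorem stepF (a b X N B h : ℕ) (hB : 3 ≤ B) (hbX : b ≤ X * a)
    (hB2 : 5 * a < 8 * (N * B) + 8 * N) (hh1 : 4 * (N * (h * B)) ≤ b) : h * N ≤ X * N := by
  have h1 : B * (20 * (h * N)) ≤ B * (16 * (X * N)) := by
    have h2 : 8 * N ≤ 8 * (N * B) := by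
      have : N * 1 ≤ N * B := Nat.mul_le_mul_left _ (by omega)
      omega
    calc B * (20 * (h * N)) = 5 * (4 * (N * (h * B))) := by ring
      _ ≤ 5 * (X * a) := Nat.mul_le_mul_left _ (le_trans hh1 hbX)
      _ = X * (5 * a) := by ring
      _ ≤ X * (16 * (N * B)) := Nat.mul_le_mul_left _ (by omega)
      _ = _ := by ring
  have h4 := Nat.le_of_mul_le_mul_left h1 (by omega)
  omega

/-- the size of `s` -/
theorem stepS (a b X N d E T T2 R w s e l : ℕ) (ha : 0 < a)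
    (hb : 0 < b) (hbX : b ≤ X * a)
    (hw : 100 * w ≤ a * b) (haw : a ^ 2 ≤ X * w) (hd4 : 4 * (N * d) ≤ b)
    (hd79 : 79 * b < 320 * (N * d)) (he : e < d) (hl : l < N)
    (gsum : 16 * (X * (R * E + N * T + N * d + T2 + N)) ≤ a ^ 2)
    (hweq : w = R * E + (N * (d * s + T + e) + (T2 + l))) :
    3 * a < X ^ 2 * s ∧ 20 * s ≤ a := by
  have hexp : N * (d * s + T + e) = N * d * s + N * T + N * e := by ring
  rw [hexp] at hweq
  have hNe : N * e ≤ N * d := Nat.mul_le_mul_left _ he.le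
  constructor
  · have h1 : w ≤ R * E + N * T + N * d + T2 + N + N * d * s := by omega
    have h2 : 16 * (X * w) ≤ a ^ 2 + 16 * (X * (N * d * s)) := by
      calc 16 * (X * w) ≤ 16 * (X * (R * E + N * T + N * d + T2 + N + N * d * s)) :=
            Nat.mul_le_mul_left _ (Nat.mul_le_mul_left _ h1)
        _ = 16 * (X * (R * E + N * T + N * d + T2 + N)) + 16 * (X * (N * d * s)) := by
            ring
        _ ≤ _ := Nat.add_le_add_right gsum _
    have h3 : 15 * a ^ 2 ≤ 16 * (X * (N * d * s)) := by omega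
    have h4 : 16 * (X * (N * d * s)) ≤ a * (4 * (X ^ 2 * s)) := by
      calc 16 * (X * (N * d * s)) = (4 * (N * d)) * (4 * X * s) := by ring
        _ ≤ (X * a) * (4 * X * s) := Nat.mul_le_mul_right _ (le_trans hd4 hbX)
        _ = a * (4 * (X ^ 2 * s)) := by ring
    have h5 : a * (15 * a) ≤ a * (4 * (X ^ 2 * s)) := by
      calc a * (15 * a) = 15 * a ^ 2 := by ring
        _ ≤ _ := le_trans h3 h4
    have h6 := Nat.le_of_mul_le_mul_left h5 ha
    omega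
  · have h1 : N * d * s ≤ w := by omega
    have h2 : b * (7900 * s) ≤ b * (320 * a) := by
      calc b * (7900 * s) = 100 * (79 * b) * s := by ring
        _ ≤ 100 * (320 * (N * d)) * s :=
            Nat.mul_le_mul_right _ (Nat.mul_le_mul_left _ hd79.le)
        _ = 320 * (100 * (N * d * s)) := by ring
        _ ≤ 320 * (100 * w) := Nat.mul_le_mul_left _ (Nat.mul_le_mul_left _ h1)
        _ ≤ 320 * (a * b) := Nat.mul_le_mul_left _ hw
        _ = b * (320 * a) := by ring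
    have h3 := Nat.le_of_mul_le_mul_left h2 hb
    omega

/-- the small terms -/
theorem stepG (a b X N d E T T2 R F : ℕ) (hX : 2 ≤ X) (ha : 0 < a)
    (hbX : b ≤ X * a) (hRX : R ≤ X ^ 2)
    (hd4 : 4 * (N * d) ≤ b) (hdX : 4 * X ^ 2 * d ≤ a) (hT : 2 * T ≤ d ^ 2)
    (hT2 : 2 * T2 ≤ F ^ 2) (hF : F ≤ X ^ 6) (hN : X * N ≤ X ^ 6) (hE4 : 4 * E ≤ X ^ 4 * a)
    (hp : 134217728 * X ^ 13 ≤ a) :
    16 * (X * (R * E + N * T + N * d + T2 + N)) ≤ a ^ 2 := by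
  have hX1 : 1 ≤ X := by omega
  have g1 : X * (R * E) ≤ X ^ 7 * a := by
    calc X * (R * E) ≤ X * (X ^ 2 * (4 * E)) :=
          Nat.mul_le_mul_left _ (Nat.mul_le_mul hRX (by omega))
      _ ≤ X * (X ^ 2 * (X ^ 4 * a)) :=
          Nat.mul_le_mul_left _ (Nat.mul_le_mul_left _ hE4)
      _ = X ^ 7 * a := by ring
  have g2 : 32 * (X * (N * T)) ≤ a ^ 2 := by
    calc 32 * (X * (N * T)) = 16 * X * N * (2 * T) := by ring
      _ ≤ 16 * X * N * d ^ 2 := Nat.mul_le_mul_left _ hT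
      _ = (4 * (N * d)) * (4 * X * d) := by ring
      _ ≤ (X * a) * (4 * X * d) := Nat.mul_le_mul_right _ (le_trans hd4 hbX)
      _ = a * (4 * X ^ 2 * d) := by ring
      _ ≤ a * a := Nat.mul_le_mul_left _ hdX
      _ = a ^ 2 := by ring
  have g3 : X * (N * d) ≤ X ^ 2 * a := by
    calc X * (N * d) ≤ X * (4 * (N * d)) := Nat.mul_le_mul_left _ (by omega)
      _ ≤ X * (X * a) := Nat.mul_le_mul_left _ (le_trans hd4 hbX)
      _ = X ^ 2 * a := by ring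
  have g4 : X * T2 ≤ X ^ 13 := by
    calc X * T2 ≤ X * (2 * T2) := Nat.mul_le_mul_left _ (by omega)
      _ ≤ X * F ^ 2 := Nat.mul_le_mul_left _ hT2
      _ ≤ X * (X ^ 6) ^ 2 := Nat.mul_le_mul_left _ (Nat.pow_le_pow_left hF 2)
      _ = X ^ 13 := by ring
  have hc7 : X ^ 7 * a ≤ X ^ 13 * a :=
    Nat.mul_le_mul_right _ (Nat.pow_le_pow_right hX1 (by norm_num))
  have hc2 : X ^ 2 * a ≤ X ^ 13 * a :=
    Nat.mul_le_mul_right _ (Nat.pow_le_pow_right hX1 (by norm_num))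
  have hc13 : X ^ 13 ≤ X ^ 13 * a := Nat.le_mul_of_pos_right _ ha
  have hc6 : X ^ 6 ≤ X ^ 13 * a := le_trans (Nat.pow_le_pow_right hX1 (by norm_num)) hc13
  have hbig : 134217728 * (X ^ 13 * a) ≤ a ^ 2 := by
    calc 134217728 * (X ^ 13 * a) = (134217728 * X ^ 13) * a := by ring
      _ ≤ a * a := Nat.mul_le_mul_right _ hp
      _ = a ^ 2 := by ring
  have : 16 * (X * (R * E + N * T + N * d + T2 + N)) =
    16 * (X * (R * E)) + 16 * (X * (N * T)) + 16 * (X * (N * d)) + 16 * (X * T2)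
      + 16 * (X * N) := by ring
  rw [this]
  generalize X * (R * E) = u1 at *
  generalize X * (N * T) = u2 at *
  generalize X * (N * d) = u3 at *
  generalize X * T2 = u4 at *
  generalize X * N = u5 at *
  generalize X ^ 13 * a = u6 at *
  generalize X ^ 7 * a = u7 at *
  generalize X ^ 2 * a = u8 at *
  generalize X ^ 13 = u9 at *
  generalize X ^ 6 = u10 at *
  generalize a ^ 2 = u11 at *
  omega


/-- the powers of `X` -/
theorem stepP (a X R' : ℕ) (hX : 2 ≤ X) (hp13 : 134217728 * X ^ 13 ≤ a) (hR' : 1 ≤ R')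
    (hRX : R' + 1 ≤ X ^ 2) :
    X ^ 3 + 1 ≤ R' * X ^ 3 + 1 ∧ 8 ≤ X ^ 3 ∧ R' * X ^ 3 + 1 ≤ X ^ 5 ∧
    64 * (R' * X ^ 3 + 1) ≤ a ∧ 134217728 * X ^ 6 ≤ a ∧ 134217728 * X ^ 8 ≤ a ∧
    134217728 * X ^ 3 ≤ a ∧ X ^ 5 ≤ X ^ 6 ∧ 4 ≤ X ^ 2 := by
  have hX1 : 1 ≤ X := by omega
  have h32 : 1 * X ^ 3 ≤ R' * X ^ 3 := Nat.mul_le_mul_right _ hR'
  have hX3 : 8 ≤ X ^ 3 := by
    calc 8 = 2 ^ 3 := by norm_num
      _ ≤ X ^ 3 := Nat.pow_le_pow_left hX _
  have hX2 : 4 ≤ X ^ 2 := by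
    calc 4 = 2 ^ 2 := by norm_num
      _ ≤ X ^ 2 := Nat.pow_le_pow_left hX _
  have hN5 : R' * X ^ 3 + 1 ≤ X ^ 5 := by
    have h1 : (R' + 1) * X ^ 3 ≤ X ^ 2 * X ^ 3 := Nat.mul_le_mul_right _ hRX
    have h2 : X ^ 2 * X ^ 3 = X ^ 5 := by ring
    have h3 : (R' + 1) * X ^ 3 = R' * X ^ 3 + X ^ 3 := by ring
    omega
  have q6 : X ^ 6 ≤ X ^ 13 := Nat.pow_le_pow_right hX1 (by norm_num)
  have q8 : X ^ 8 ≤ X ^ 13 := Nat.pow_le_pow_right hX1 (by norm_num)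
  have q3 : X ^ 3 ≤ X ^ 13 := Nat.pow_le_pow_right hX1 (by norm_num)
  have q5 : X ^ 5 ≤ X ^ 6 := Nat.pow_le_pow_right hX1 (by norm_num)
  refine ⟨by omega, hX3, hN5, by omega, by omega, by omega, by omega, q5, hX2⟩

/-- **[PAR]** the literal. -/
theorem parM : ParM := by
  intro a b X R w hX ha hab hbX hR hRX hw haw
  have hp13 : 134217728 * X ^ 13 ≤ a := by
    calc 134217728 * X ^ 13 = 2 ^ 27 * X ^ 13 := by norm_num
      _ ≤ X ^ 27 * X ^ 13 := Nat.mul_le_mul_right _ (Nat.pow_le_pow_left hX _)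
      _ = X ^ 40 := by rw [← pow_add]
      _ ≤ a := ha
  clear ha
  have hX1 : 1 ≤ X := by omega
  have ha0 : 0 < a := by
    have : 0 < X ^ 13 := by positivity
    omega
  obtain ⟨R', rfl⟩ : ∃ R', R = R' + 1 := ⟨R - 1, by omega⟩
  have hR' : 1 ≤ R' := by omega
  obtain ⟨hN3, hX3, hN5, haN, hp6, hp8, hp3, q5, hX2⟩ := stepP a X R' hX hp13 hR' hRX
  obtain ⟨N, hN⟩ : ∃ N, N = R' * X ^ 3 + 1 := ⟨_, rfl⟩
  rw [← hN] at hN3 hN5 haN
  have hN9 : 9 ≤ N := by omega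
  have hN0 : 0 < N := by omega
  obtain ⟨B, h, hB3, hh0, hB1, hB2, hd4, hd5⟩ := stepA a b N hN9 haN hab
  have hF := stepF a b X N B h hB3 hbX hB2 hd4
  have hF12 : 12 * (h * N) ≤ b := by
    calc 12 * (h * N) = 4 * (N * (h * 3)) := by ring
      _ ≤ 4 * (N * (h * B)) :=
          Nat.mul_le_mul_left _ (Nat.mul_le_mul_left _ (Nat.mul_le_mul_left _ hB3))
      _ ≤ b := hd4
  have hd2 : 2 ≤ h * B := by
    calc 2 ≤ 1 * 3 := by norm_num
      _ ≤ h * B := Nat.mul_le_mul hh0 hB3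
  obtain ⟨d, hd⟩ : ∃ d, d = h * B := ⟨_, rfl⟩
  obtain ⟨F, hFF⟩ : ∃ F, F = h * N := ⟨_, rfl⟩
  rw [← hd] at hd4 hd5 hd2
  rw [← hFF] at hF hF12
  have hd0 : 0 < d := by omega
  have hb0 : 0 < b := by omega
  have hd79 : 79 * b < 320 * (N * d) := by omega
  have hXN : X * N ≤ X ^ 6 := by
    calc X * N ≤ X * X ^ 5 := Nat.mul_le_mul_left _ hN5
      _ = X ^ 6 := by ring
  have hF6 : F ≤ X ^ 6 := le_trans hF hXN
  have hdX : 4 * X ^ 2 * d ≤ a := by
    have h1 : X * (4 * X ^ 2 * d) ≤ X * a := by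
      calc X * (4 * X ^ 2 * d) = 4 * (X ^ 3 * d) := by ring
        _ ≤ 4 * (N * d) := Nat.mul_le_mul_left _ (Nat.mul_le_mul_right _ (by omega))
        _ ≤ X * a := le_trans hd4 hbX
    exact Nat.le_of_mul_le_mul_left h1 (by omega)
  have hd16 : 16 * d ≤ a := by
    calc 16 * d = 4 * 4 * d := by ring
      _ ≤ 4 * X ^ 2 * d := Nat.mul_le_mul_right _ (Nat.mul_le_mul_left _ hX2)
      _ ≤ a := hdX
  obtain ⟨E, hE⟩ : ∃ E, E = d * N * X ^ 3 := ⟨_, rfl⟩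
  have hE4 : 4 * E ≤ X ^ 4 * a := by
    calc 4 * E = X ^ 3 * (4 * (N * d)) := by rw [hE]; ring
      _ ≤ X ^ 3 * (X * a) := Nat.mul_le_mul_left _ (le_trans hd4 hbX)
      _ = X ^ 4 * a := by ring
  obtain ⟨T, hT⟩ : ∃ T, T = ∑ i ∈ Finset.range d, i := ⟨_, rfl⟩
  obtain ⟨T2, hT2⟩ : ∃ T2, T2 = ∑ i ∈ Finset.range F, i := ⟨_, rfl⟩
  have hT' : 2 * T ≤ d ^ 2 := by
    have h0 := Finset.sum_range_id_mul_two d
    rw [← hT] at h0
    have h1 : d * (d - 1) ≤ d * d := Nat.mul_le_mul_left _ (by omega)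
    have h2 : d ^ 2 = d * d := by ring
    omega
  have hT2' : 2 * T2 ≤ F ^ 2 := by
    have h0 := Finset.sum_range_id_mul_two F
    rw [← hT2] at h0
    have h1 : F * (F - 1) ≤ F * F := Nat.mul_le_mul_left _ (by omega)
    have h2 : F ^ 2 = F * F := by ring
    omega
  have gsum := stepG a b X N d E T T2 (R' + 1) F hX ha0 hbX hRX hd4 hdX hT' hT2' hF6 hXN hE4 hp13
  have hfit : (R' + 1) * E + N * T + T2 ≤ w := by
    have h1 : X * ((R' + 1) * E + N * T + N * d + T2 + N) ≤ X * w := by omega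
    have h2 := Nat.le_of_mul_le_mul_left h1 (by omega)
    omega
  obtain ⟨s, e, l, he, hl, hweq⟩ := divd w ((R' + 1) * E) T T2 N d hN0 hd0 hfit
  obtain ⟨hs1, hs2⟩ := stepS a b X N d E T T2 (R' + 1) w s e l ha0 hb0 hbX hw haw hd4 hd79 he
    hl gsum hweq
  have hX2pos : 0 < X ^ 2 := by positivity
  have hds : d ≤ s := by
    have h0 : 4 * X ^ 2 * d = 4 * (X ^ 2 * d) := by ring
    rw [h0] at hdX
    have : X ^ 2 * d ≤ X ^ 2 * s := by omega
    exact Nat.le_of_mul_le_mul_left this hX2pos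
  have hFs : F + N ≤ s := by
    have h1 : X ^ 2 * (F + N) ≤ X ^ 2 * s := by
      calc X ^ 2 * (F + N) ≤ X ^ 2 * (2 * X ^ 6) := Nat.mul_le_mul_left _ (by omega)
        _ = 2 * X ^ 8 := by ring
        _ ≤ X ^ 2 * s := by omega
    exact Nat.le_of_mul_le_mul_left h1 hX2pos
  obtain ⟨N', hN'⟩ : ∃ N', N = N' + 1 := ⟨N - 1, by omega⟩
  have hNN : N - 1 = N' := by omega
  have hBN : N * B = B * N' + B := by rw [hN']; ring
  have hBN8 : 8 * B ≤ B * N' := by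
    calc 8 * B = B * 8 := by ring
      _ ≤ B * N' := Nat.mul_le_mul_left _ (by omega)
  have hNk : ∃ k, k = d / 2 := ⟨_, rfl⟩
  obtain ⟨k, hk⟩ := hNk
  have hk1 : 2 * k ≤ d := by omega
  have hk2 : d ≤ 2 * k + 1 := by omega
  have hNk1 : 2 * (N * k) ≤ N * d := by
    calc 2 * (N * k) = N * (2 * k) := by ring
      _ ≤ N * d := Nat.mul_le_mul_left _ hk1
  have hNk2 : N * d ≤ 2 * (N * k) + N := by
    calc N * d ≤ N * (2 * k + 1) := Nat.mul_le_mul_left _ hk2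
      _ = 2 * (N * k) + N := by ring
  have hNk3 : N * d ≤ 3 * (N * k) := by
    calc N * d ≤ N * (3 * k) := Nat.mul_le_mul_left _ (by omega)
      _ = _ := by ring
  refine ⟨X ^ 3, h, B, N, d, E, F, s, e, l, by omega, hh0, by omega, ?_, hd, hE, hFF, hd2, he,
    hl, ?_, hds, hFs, ?_, ?_, ?_, ?_, ?_, ?_, ?_, ?_⟩
  · rw [hN]; simp
  · rw [← hT, ← hT2]; exact hweq
  · rw [hNN]; omega
  · rw [hNN]; omega
  · have h3 : 3 * (d * N + F) = 3 * (N * d) + 3 * F := by ring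
    omega
  · omega
  · omega
  · rw [← hk]; omega
  · rw [← hk]; omega
  · rw [← hk, mul_comm d N]; exact hNk3

end Vale.Agent.P181.MR.H39
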